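import Vale.Agent.P050.H936.Defs

/-!
The number of edges of `replaced s t κ c`.
-/

namespace Vale.Agent.P050.H226.Sub

open Finset Vale.Agent.P050.H936

variable {V E : Type} (s t : E → V) (κ : V → ℕ) (c : E → ℕ)

/-- the relation of `replaced` -/
def rel : Vert s t κ c → Vert s t κ c → Prop
  | .inl v, .inr (.inl i) => v = en s t i.1 ∧ (i.2 : ℕ) = 0
  | .inr (.inl i), .inr (.inl i') => i.1 = i'.1 ∧ (i.2 : ℕ) + 1 = i'.2
  | .inr (.inl i), .inr (.inr m) => i.1.1 = m.1 ∧ (i.2 : ℕ) = κ (en s t i.1)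
  | _, _ => False

theorem adj_iff (a b : Vert s t κ c) : (replaced s t κ c).Adj a b ↔
    a ≠ b ∧ (rel s t κ c a b ∨ rel s t κ c b a) := by
  rcases a with a | a | a <;> rcases b with b | b | b <;> exact Iff.rfl

/-- the index of the edges -/
abbrev Dr : Type := (Σ h : E × Bool, Fin (κ (en s t h) + 1)) ⊕ (Σ h : E × Bool, Fin (c h.1 + 1))

/-- the first vertex of an edge -/
def fs : Dr s t κ c → Vert s t κ c
  | .inl ⟨h, i⟩ => Fin.cases (.inl (en s t h)) (fun j => .inr (.inl ⟨h, j.castSucc⟩)) i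
  | .inr ⟨h, _⟩ => .inr (.inl ⟨h, Fin.last _⟩)

/-- the second vertex of an edge -/
def sn : Dr s t κ c → Vert s t κ c
  | .inl x => .inr (.inl x)
  | .inr ⟨h, j⟩ => .inr (.inr ⟨h.1, j⟩)

/-- the rank of a vertex -/
def rk : Vert s t κ c → WithTop ℕ
  | .inl _ => 0
  | .inr (.inl i) => (((i.2 : ℕ) + 1 : ℕ) : WithTop ℕ)
  | .inr (.inr _) => ⊤

theorem rk_lt (d : Dr s t κ c) : rk s t κ c (fs s t κ c d) < rk s t κ c (sn s t κ c d) := by
  rcases d with ⟨h, i⟩ | ⟨h, j⟩
  · induction i using Fin.cases with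
    | zero =>
      show (0 : WithTop ℕ) < ((0 + 1 : ℕ) : WithTop ℕ)
      exact_mod_cast Nat.zero_lt_one
    | succ j =>
      show (((j : ℕ) + 1 : ℕ) : WithTop ℕ) < (((j : ℕ) + 1 + 1 : ℕ) : WithTop ℕ)
      exact_mod_cast Nat.lt_succ_self _
  · exact WithTop.coe_lt_top _

theorem rel_fs (d : Dr s t κ c) : rel s t κ c (fs s t κ c d) (sn s t κ c d) := by
  rcases d with ⟨h, i⟩ | ⟨h, j⟩
  · induction i using Fin.cases with
    | zero => exact ⟨rfl, rfl⟩
    | succ j => exact ⟨rfl, rfl⟩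
  · exact ⟨rfl, rfl⟩

theorem rel_ex (a b : Vert s t κ c) (h : rel s t κ c a b) :
    ∃ d, fs s t κ c d = a ∧ sn s t κ c d = b := by
  rcases a with v | ⟨h1, i⟩ | m <;> rcases b with w | ⟨h2, j⟩ | m'
  · exact h.elim
  · obtain ⟨e1, e2⟩ := h
    have e3 : j = 0 := Fin.ext e2
    subst e3
    exact ⟨.inl ⟨h2, 0⟩, by rw [e1]; rfl, rfl⟩
  · exact h.elim
  · exact h.elim
  · obtain ⟨e1, e2⟩ := h
    have e1' : h1 = h2 := e1
    subst e1'
    have e2' : (i : ℕ) + 1 = j := e2
    have hi : (i : ℕ) < κ (en s t h1) := by have := j.2; omega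
    have e3 : j = Fin.succ ⟨i, hi⟩ := Fin.ext e2'.symm
    subst e3
    exact ⟨.inl ⟨h1, Fin.succ ⟨i, hi⟩⟩, rfl, rfl⟩
  · obtain ⟨e, j⟩ := m'
    obtain ⟨e1, e2⟩ := h
    have e1' : h1.1 = e := e1
    subst e1'
    have e3 : i = Fin.last _ := Fin.ext e2
    subst e3
    exact ⟨.inr ⟨h1, j⟩, rfl, rfl⟩
  · exact h.elim
  · exact h.elim
  · exact h.elim

theorem inj (d d' : Dr s t κ c) (h1 : fs s t κ c d = fs s t κ c d')
    (h2 : sn s t κ c d = sn s t κ c d') : d = d' := by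
  rcases d with x | ⟨h, j⟩ <;> rcases d' with x' | ⟨h', j'⟩
  · have h3 : x = x' := by
      have := h2
      simp only [sn, Sum.inr.injEq, Sum.inl.injEq] at this
      exact this
    rw [h3]
  · simp [sn] at h2
  · simp [sn] at h2
  · simp only [fs, Sum.inr.injEq, Sum.inl.injEq, Sigma.mk.injEq] at h1
    obtain ⟨h3, -⟩ := h1
    subst h3
    simp only [sn, Sum.inr.injEq, Sigma.mk.injEq, heq_eq_eq, true_and] at h2
    rw [h2]

/-- the edges -/
noncomputable def edges : Dr s t κ c ≃ (replaced s t κ c).edgeSet :=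
  Equiv.ofBijective (fun d => ⟨s(fs s t κ c d, sn s t κ c d), by
    rw [SimpleGraph.mem_edgeSet, adj_iff]
    exact ⟨fun h => (rk_lt s t κ c d).ne (by rw [h]), Or.inl (rel_fs s t κ c d)⟩⟩) (by
    constructor
    · intro d d' h
      have h1 : s(fs s t κ c d, sn s t κ c d) = s(fs s t κ c d', sn s t κ c d') :=
        congrArg Subtype.val h
      rw [Sym2.eq_iff] at h1
      rcases h1 with ⟨h2, h3⟩ | ⟨h2, h3⟩
      · exact inj s t κ c d d' h2 h3
      · have h4 := rk_lt s t κ c d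
        have h5 := rk_lt s t κ c d'
        rw [h2, h3] at h4
        exact absurd h4 h5.asymm
    · rintro ⟨e, he⟩
      induction e using Sym2.ind with
      | h a b =>
        rw [SimpleGraph.mem_edgeSet, adj_iff] at he
        rcases he.2 with h | h
        · obtain ⟨d, h1, h2⟩ := rel_ex s t κ c a b h
          refine ⟨d, Subtype.ext ?_⟩
          show s(fs s t κ c d, sn s t κ c d) = s(a, b)
          rw [h1, h2]
        · obtain ⟨d, h1, h2⟩ := rel_ex s t κ c b a h
          refine ⟨d, Subtype.ext ?_⟩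
          show s(fs s t κ c d, sn s t κ c d) = s(a, b)
          rw [h1, h2]
          exact Sym2.eq_swap)

theorem card_edges [Fintype V] [Fintype E] :
    Nat.card (replaced s t κ c).edgeSet = ∑ e, (κ (s e) + κ (t e) + 4 + 2 * c e) := by
  rw [← Nat.card_congr (edges s t κ c), Nat.card_eq_fintype_card, Fintype.card_sum,
    Fintype.card_sigma, Fintype.card_sigma]
  have h1 : ∀ h : E × Bool, Fintype.card (Fin (κ (en s t h) + 1)) = κ (en s t h) + 1 :=
    fun h => Fintype.card_fin _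
  have h2 : ∀ h : E × Bool, Fintype.card (Fin (c h.1 + 1)) = c h.1 + 1 :=
    fun h => Fintype.card_fin _
  simp only [h1, h2]
  rw [Fintype.sum_prod_type, Fintype.sum_prod_type, ← Finset.sum_add_distrib]
  refine Finset.sum_congr rfl fun e _ => ?_
  rw [Fintype.sum_bool, Fintype.sum_bool]
  show κ (t e) + 1 + (κ (s e) + 1) + (c e + 1 + (c e + 1)) = κ (s e) + κ (t e) + 4 + 2 * c e
  ring

end Vale.Agent.P050.H226.Sub
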