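import Vale.Agent.P050.H936.Spec
import Vale.Agent.P050.H226.Sub.Card0

/-!
[S4'] the number of edges of `replaced s t κ c`.
-/

namespace Vale.Agent.P050.H226.Sub

open Vale.Agent.P050.H936

theorem card : CardStmt := fun _ _ _ _ s t κ c => card_edges s t κ c

end Vale.Agent.P050.H226.Sub
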